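import Vale.Agent.P297.H697.Ell
import Vale.Agent.P297.Gen.H516.Last

open CategoryTheory AlgebraicGeometry IntermediateField Polynomial Vale.Agent.P297
  Vale.Agent.P297.H839 Vale.Agent.P297.H516 Vale.Agent.P297.Gen Vale.Agent.P297.H230

namespace Vale.Agent.Results.P297.SplitGenusTwo

/-- Zero-cycles on every variety dominated by a pencil of curves of genus two with split
Jacobian. -/
theorem result (K : Type) [Field K] [Algebra ℂ K] (l x y : K)
    (f : (IntermediateField.adjoin ℂ {l})[X]) (h : Pencil l x y f) (F₁ F₂ : IntermediateField ℂ K)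
    (a₁ a₂ : (IntermediateField.adjoin ℂ {l})[X])
    (h₁ : EllipticQuotient l x y F₁ a₁) (h₂ : EllipticQuotient l x y F₂ a₂)
    (heven : Even (Module.finrank F₁ K + Module.finrank F₂ K))
    (ha₁ : a₁.natDegree ≤ 1) (ha₂ : a₂.natDegree ≤ 1)
    (hd : a₁.coeff 0 * a₂.coeff 1 - a₁.coeff 1 * a₂.coeff 0 ≠ 0)
    (htr₁ : Algebra.trace F₁ K (aeval x a₂ / aeval x a₁) = 0)
    (htr₂ : Algebra.trace F₂ K (aeval x a₁ / aeval x a₂) = 0) :
    -- (1) the closed points of every model of the pencil are rationally equivalent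
    PointsEquivalent K ∧
    -- (2) the same for every pencil of curves of genus two dominated by the given one
    (∀ (K₀ : Type) [Field K₀] [Algebra ℂ K₀] (l' x' y' : K₀)
      (f' : (IntermediateField.adjoin ℂ {l'})[X]), (K₀ →ₐ[ℂ] K) → Pencil l' x' y' f' →
      PointsEquivalent K₀) ∧
    -- (3) every variety dominated by the given pencil, up to the factor 2, and integrally for
    -- double covers of rational varieties
    (∀ (K₀ : Type) [Field K₀] [Algebra ℂ K₀], (K₀ →ₐ[ℂ] K) →
      TorsionPoints 2 K₀ ∧ (IsDouble K₀ → PointsEquivalent K₀)) := by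
  have key := fun (K₀ : Type) [Field K₀] [Algebra ℂ K₀] (e : K₀ →ₐ[ℂ] K) =>
    H697.split h F₁ F₂ h₁ h₂ heven ha₁ ha₂ hd htr₁ htr₂ K₀ e
  exact ⟨(key K (AlgHom.id ℂ K)).2 h.isDouble, fun K₀ _ _ _ _ _ _ e h' => (key K₀ e).2 h'.isDouble,
    fun K₀ _ _ e => key K₀ e⟩

end Vale.Agent.Results.P297.SplitGenusTwo
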